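import Vale.Agent.P146.H205.S3Def

set_option linter.all false

/-!
# P146, S3: the a priori package from the entropies without field and one response

`apk_core`: `KV w 0 ≤ E w ^ 6` for `w ∈ [y, 16 y]` and the response over `(0, W)` at one exponent in
`[y, 2 y]` give the a priori package at all exponents in `[y / 2, 2 y]` and all fields in `[0, W]`.
Only increments are used, nothing below the scale `y`.
-/

open MeasureTheory ProbabilityTheory Filter Topology Set

namespace Vale.Agent.P146.S3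

open Vale.Agent.P146
open Vale.Agent.P146.H877 (kap At)
open Vale.Agent.P146.H9 (Phn KV)
open Vale.Agent.P146.H205.U4
open Vale.Agent.P146.H178 (AP Phn_mono KV_le_dbl At_lin)

lemma err_monoV (β : ℝ) (n : ℕ) {y V W : ℝ} (hy : 0 ≤ y) (hV : 0 ≤ V) (hVW : V ≤ W) :
    err β n y V ≤ err β n y W := by
  unfold err
  have : V ^ 2 ≤ W ^ 2 := pow_le_pow_left₀ hV hVW 2
  gcongr

/-- **The a priori package for one `n`, from entropies without field.** -/
theorem apk_core {β E : ℝ} (hβ : 0 < β) {n : ℕ} (hn : 1 ≤ n) (hE : 0 ≤ E)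
    (cv : ∀ x : ℝ, 0 < x → x ≤ 1 / 2 → ConcaveOn ℝ (Ici 0) (Phn n β x))
    {y z W : ℝ} (hy0 : 0 < y) (hy1 : y ≤ 1 / 16) (hyz : y ≤ z) (hz : z ≤ 2 * y) (hW0 : 0 < W)
    (hyW : 16 * (y * W) ≤ β) (hA : 1 ≤ At β n z W)
    (hk : ∀ w : ℝ, y ≤ w → w ≤ 8 * y → KV n β w 0 ≤ E * w ^ 6)
    (he : ∀ w : ℝ, y ≤ w → w ≤ 8 * y → err β n w W ≤ E * w ^ 5)
    {u : ℝ} (hu1 : y / 2 ≤ u) (hu2 : u ≤ 2 * y) {V : ℝ} (hV0 : 0 ≤ V) (hVW : V ≤ W) :
    |Phn n β u V - Phn n β u 0 - n * V / (2 * β)| ≤ 2 * 10 ^ 7 * E * u ^ 5 ∧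
    Phn n β (2 * u) V - Phn n β u V ≤ 2 * 10 ^ 7 * E * u ^ 5 ∧
    KV n β u V ≤ 4 * 10 ^ 7 * E * u ^ 6 := by
  have hn0 : (0 : ℝ) < n := by exact_mod_cast hn
  have hu0 : 0 < u := by linarith
  have hz0 : 0 < z := by linarith
  -- the increments without field
  have hI : ∀ w : ℝ, y / 2 ≤ w → w ≤ 4 * y → Phn n β (2 * w) 0 - Phn n β w 0 ≤ 32 * E * w ^ 5 := by
    intro w hw1 hw2
    have hw0 : 0 < w := by linarith
    refine (dbl_up n β 0 hw0).trans ?_
    rw [div_le_iff₀ (by positivity)]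
    have := hk (2 * w) (by linarith) (by linarith)
    linarith [show 32 * E * w ^ 5 * (2 * w) = E * (2 * w) ^ 6 by ring]
  -- the upper bound of the linear response
  have hD : ∀ w : ℝ, y / 2 ≤ w → w ≤ 4 * y →
      Phn n β w V - Phn n β w 0 - n * V / (2 * β) ≤ 64 * E * w ^ 5 := by
    intro w hw1 hw2
    have hw0 : 0 < w := by linarith
    have h1 : 4 * (w * V) ≤ β := by
      have : w * V ≤ 4 * y * W := mul_le_mul hw2 hVW hV0 (by linarith)
      linarith
    have h2 := resp_dbl hβ hn hw0 hV0 h1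
    have h3 := hI w hw1 hw2
    have h4 := err_monoV β n (show 0 ≤ 2 * w by linarith) hV0 hVW
    have h5 := he (2 * w) (by linarith) (by linarith)
    linarith [show E * (2 * w) ^ 5 = 32 * E * w ^ 5 by ring]
  -- the response at `z`
  have hDz := At_lin hβ hn (cv z hz0 (by linarith)) hW0 hA hV0 hVW
  -- the entropy at `z`
  have hTz : Phn n β (2 * z) V - Phn n β z V ≤ 2080 * E * z ^ 5 := by
    have h1 := hD (2 * z) (by linarith) (by linarith)
    have h2 := hI z (by linarith) (by linarith)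
    have e1 : 64 * E * (2 * z) ^ 5 = 2048 * E * z ^ 5 := by ring
    rw [e1] at h1
    linarith
  have hKz : KV n β z V ≤ 4160 * E * z ^ 6 := by
    have h1 := KV_le_dbl n β V hz0
    have h2 := mul_le_mul_of_nonneg_left hTz (show 0 ≤ 2 * z by positivity)
    linarith [show 2 * z * (2080 * E * z ^ 5) = 4160 * E * z ^ 6 by ring]
  -- the lower bound of the linear response, at all `w` in `[u, 4 y]`
  have hL : ∀ w : ℝ, y / 2 ≤ w → w ≤ 4 * y →
      -(17039360 * E * w ^ 5) ≤ Phn n β w V - Phn n β w 0 - n * V / (2 * β) := by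
    intro w hw1 hw2
    have hw0 : 0 < w := by linarith
    have h8 : 0 ≤ E * w ^ 5 := by positivity
    rcases le_total z w with hzw | hzw
    · have h1 := Phn_mono n β V hz0 hzw
      have h2 := (H9.Phn_sub_bd n β 0 hz0 hzw).2
      have h3 := hk w (by linarith) (by linarith)
      have h4 : KV n β w 0 * (1 / z - 1 / w) ≤ 4 * E * w ^ 5 := by
        have h5 : 1 / z - 1 / w ≤ 4 / w := by
          have h6 : 1 / z ≤ 4 / w := by
            rw [div_le_div_iff₀ hz0 hw0]
            linarith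
          have : 0 < 1 / w := by positivity
          linarith
        have h5' : 0 ≤ 1 / z - 1 / w := by
          have := one_div_le_one_div_of_le hz0 hzw
          linarith
        have h7 : 0 ≤ E * w ^ 6 := by positivity
        calc KV n β w 0 * (1 / z - 1 / w) ≤ E * w ^ 6 * (4 / w) := mul_le_mul h3 h5 h5' h7
          _ = 4 * E * w ^ 5 := by field_simp
      linarith [show 4 * E * w ^ 5 = 4 * (E * w ^ 5) by ring,
        show 17039360 * E * w ^ 5 = 17039360 * (E * w ^ 5) by ring]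
    · have h1 := Phn_mono n β 0 hw0 hzw
      have h2 := (H9.Phn_sub_bd n β V hw0 hzw).2
      have h3 : KV n β z V * (1 / w - 1 / z) ≤ 4160 * E * z ^ 6 * (1 / w) := by
        have h4 : 1 / w - 1 / z ≤ 1 / w := by
          have : 0 < 1 / z := by positivity
          linarith
        have h5 : 0 ≤ 1 / w - 1 / z := by
          have := one_div_le_one_div_of_le hw0 hzw
          linarith
        exact mul_le_mul hKz h4 h5 (by positivity)
      have h6 : 4160 * E * z ^ 6 * (1 / w) ≤ 17039360 * E * w ^ 5 := by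
        have hz4 : z ≤ 4 * w := by linarith
        have h7 : z ^ 6 * (1 / w) ≤ 4096 * w ^ 5 := by
          rw [mul_one_div, div_le_iff₀ hw0]
          calc z ^ 6 ≤ (4 * w) ^ 6 := by gcongr
            _ = 4096 * w ^ 5 * w := by ring
        have h10 : 0 ≤ 4160 * E := by positivity
        calc 4160 * E * z ^ 6 * (1 / w) = 4160 * E * (z ^ 6 * (1 / w)) := by ring
          _ ≤ 4160 * E * (4096 * w ^ 5) := mul_le_mul_of_nonneg_left h7 h10
          _ = _ := by ring
      linarith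
  have hE5 : 0 ≤ E * u ^ 5 := by positivity
  have d1 := hD u hu1 (by linarith)
  have d2 := hL u hu1 (by linarith)
  have e1 : 64 * E * u ^ 5 = 64 * (E * u ^ 5) := by ring
  have e2 : 17039360 * E * u ^ 5 = 17039360 * (E * u ^ 5) := by ring
  have e0 : 2 * 10 ^ 7 * E * u ^ 5 = 2 * 10 ^ 7 * (E * u ^ 5) := by ring
  rw [e1] at d1
  rw [e2] at d2
  have htc : Phn n β (2 * u) V - Phn n β u V ≤ 2 * 10 ^ 7 * E * u ^ 5 := by
    have d3 := hD (2 * u) (by linarith) (by linarith)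
    have d4 := hI u hu1 (by linarith)
    have e3 : 64 * E * (2 * u) ^ 5 = 2048 * (E * u ^ 5) := by ring
    have e4 : 32 * E * u ^ 5 = 32 * (E * u ^ 5) := by ring
    rw [e3] at d3
    rw [e4] at d4
    rw [e0]
    linarith
  refine ⟨?_, htc, ?_⟩
  · rw [e0, abs_le]
    constructor <;> linarith
  · have h1 := KV_le_dbl n β V hu0
    have h2 := mul_le_mul_of_nonneg_left htc (show 0 ≤ 2 * u by positivity)
    linarith [show 2 * u * (2 * 10 ^ 7 * E * u ^ 5) = 4 * 10 ^ 7 * E * u ^ 6 by ring]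

/-- **The package `AP`.** -/
theorem apk {β G s0 : ℝ} (hβ : 0 < β) {n : ℕ} (hn : 1 ≤ n) (hG : 0 ≤ G)
    (hs : 4 * 10 ^ 7 * G ≤ (n : ℝ) ^ s0)
    (cv : ∀ x : ℝ, 0 < x → x ≤ 1 / 2 → ConcaveOn ℝ (Ici 0) (Phn n β x))
    {y z W : ℝ} (hy0 : 0 < y) (hy1 : y ≤ 1 / 16) (hyz : y ≤ z) (hz : z ≤ 2 * y) (hW0 : 0 < W)
    (hyW : 16 * (y * W) ≤ β) (hA : 1 ≤ At β n z W)
    (hk : ∀ w : ℝ, y ≤ w → w ≤ 8 * y → KV n β w 0 ≤ G * (n * w ^ 6))
    (he : ∀ w : ℝ, y ≤ w → w ≤ 8 * y → err β n w W ≤ G * (n * w ^ 5))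
    {u : ℝ} (hu1 : y / 2 ≤ u) (hu2 : u ≤ 2 * y) : AP β s0 n u W := by
  have hn0 : (0 : ℝ) < n := by exact_mod_cast hn
  have hu0 : 0 < u := by linarith
  have key : ∀ V : ℝ, 0 ≤ V → V ≤ W → _ := fun V hV0 hVW =>
    apk_core (E := G * n) hβ hn (by positivity) cv hy0 hy1 hyz hz hW0 hyW hA
      (fun w h1 h2 => by
        have := hk w h1 h2
        linarith [show G * (n * w ^ 6) = G * n * w ^ 6 by ring])
      (fun w h1 h2 => by
        have := he w h1 h2
        linarith [show G * (n * w ^ 5) = G * n * w ^ 5 by ring]) hu1 hu2 hV0 hVW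
  have e : (n : ℝ) ^ (1 + s0) = n * (n : ℝ) ^ s0 := by
    rw [Real.rpow_add hn0, Real.rpow_one]
  have h6 : 4 * 10 ^ 7 * (G * n) ≤ (n : ℝ) ^ (1 + s0) := by
    rw [e]
    have := mul_le_mul_of_nonneg_left hs hn0.le
    linarith [show (n : ℝ) * (4 * 10 ^ 7 * G) = 4 * 10 ^ 7 * (G * n) by ring]
  have h5 : 2 * 10 ^ 7 * (G * n) ≤ (n : ℝ) ^ (1 + s0) := by
    have : 0 ≤ G * n := by positivity
    linarith
  refine ⟨fun V h1 h2 => (key V h1 h2).1.trans ?_, fun V h1 h2 => (key V h1 h2).2.1.trans ?_,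
    fun V h1 h2 => (key V h1 h2).2.2.trans ?_⟩
  · exact mul_le_mul_of_nonneg_right h5 (by positivity)
  · exact mul_le_mul_of_nonneg_right h5 (by positivity)
  · exact mul_le_mul_of_nonneg_right h6 (by positivity)

end Vale.Agent.P146.S3
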