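import Vale.Agent.P146.H122.S3Defs
import Vale.Agent.P146.H178.KDiffA

set_option linter.all false

/-!
# P146, S3: the inequality for the difference of the entropies, the a priori package as hypothesis
-/

open MeasureTheory Set Filter Topology

namespace Vale.Agent.P146.S3

open Vale.Agent.P146.H9 (Phn KV)
open Vale.Agent.P146.H529 (SG)
open Vale.Agent.P146.H317 (J)
open Vale.Agent.P146.H178

/-- `C / q ≤ n ^ (c q)` -/
lemma ev_inv {c : ℝ} (hc : 0 < c) (C : ℝ) : EV fun n q => C / q ≤ (n : ℝ) ^ (c * q) := by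
  filter_upwards [ev_log one_pos 1, S3.ev_pow hc |C| 1, ev_q0] with ⟨n, q⟩ h1 h2 hq
  dsimp only at h1 h2 hq ⊢
  have hL : 1 / q ≤ Real.log n := by
    rw [div_le_iff₀ hq]
    linarith
  rw [pow_one] at h2
  calc C / q ≤ |C| * (1 / q) := by
        rw [mul_one_div]
        gcongr
        exact le_abs_self C
    _ ≤ |C| * Real.log n := mul_le_mul_of_nonneg_left hL (abs_nonneg C)
    _ ≤ _ := h2

/-- `n ^ (-(c q)) ≤ q / K` -/
lemma ev_negq {c K : ℝ} (hc : 0 < c) (hK : 0 < K) :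
    EV fun n q => (n : ℝ) ^ (-(c * q)) ≤ q / K := by
  filter_upwards [ev_inv hc K, ev_q0, ev_three] with ⟨n, q⟩ h1 hq h3
  dsimp only at h1 hq h3 ⊢
  have hn : (0 : ℝ) < n := by linarith [h3.1]
  rw [Real.rpow_neg hn.le, inv_le_comm₀ (Real.rpow_pos_of_pos hn _) (by positivity)]
  rwa [inv_div]

/-- `n ^ (-(c q)) ≤ t` -/
lemma ev_negc {c t : ℝ} (hc : 0 < c) (ht : 0 < t) :
    EV fun n q => (n : ℝ) ^ (-(c * q)) ≤ t := by
  filter_upwards [ev_rpow hc (1 / t), ev_three] with ⟨n, q⟩ h1 h3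
  dsimp only at h1 h3 ⊢
  have hn : (0 : ℝ) < n := by linarith [h3.1]
  rw [Real.rpow_neg hn.le, inv_le_comm₀ (Real.rpow_pos_of_pos hn _) ht]
  rwa [← one_div]

/-- The inequality for the difference of the entropies at the fields `2 v` and `v`; the a priori
package is a hypothesis. -/
def KDiffQ (β b₁ q : ℝ) (n : ℕ) : Prop :=
  ∀ y : ℝ, (n : ℝ) ^ (-(1 / 6) + 1000 * q) ≤ y → y ≤ 4 * (n : ℝ) ^ (-b₁) →
    ∀ v : ℝ, (n : ℝ) ^ (-(24 * q)) * y ^ 3 ≤ v → v ≤ 128 * ((n : ℝ) ^ (-(24 * q)) * y ^ 3) →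
    ∀ L : ℝ, (n : ℝ) ^ (-(11 * q)) * y ^ 2 ≤ L → L ≤ (n : ℝ) ^ (-(10 * q)) * y ^ 2 →
    (∀ u : ℝ, y / 2 ≤ u → u ≤ 2 * y → AP β (q / 2) n u (4 * v)) →
    1 + L / 2 ≤ H122.Asec β (fun n => Phn n β) n y v (2 * v) →
    H122.Asec β (fun n => Phn n β) n y v (2 * v) ≤ 1 + L →
    KV n β y (2 * v) - KV n β y v ≤ (1 + 3 * q) * (n * y * v / β) * L

/-- **The inequality for the difference of the entropies.** -/
theorem kdiffQ_of {β b₁ : ℝ} {Ka : ℝ → ℕ → ℝ → ℝ → ℝ → ℝ} (hβ : 1 < β) (hb₁ : 0 < b₁)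
    (LU : LinkUpS β Ka) (LD : LinkDnS β Ka) (KU : KampUpS β b₁ Ka) (KL : KampLowS β b₁ Ka) :
    EV fun n q => KDiffQ β b₁ q n := by
  have hβ0 : 0 < β := by linarith
  filter_upwards [ev_negq (show (0 : ℝ) < 45 by norm_num) (show (0 : ℝ) < 10 by norm_num),
    ev_negq (show (0 : ℝ) < 2 by norm_num) (show (0 : ℝ) < 10 * 512 by norm_num),
    ev_negq (show (0 : ℝ) < 13 / 2 by norm_num) (show 0 < 10 * (64 * β ^ 2) by positivity),
    ev_negq (show (0 : ℝ) < 1 by norm_num) (show 0 < 10 * (64 * β ^ 3) by positivity),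
    ev_negq (show (0 : ℝ) < 1 by norm_num) (show 0 < 10 * (4 * β) by positivity),
    ev_rpow (show (0 : ℝ) < 1 / 2 by norm_num) (512 * β),
    ev_atTop (H178.ev_neg hb₁ (show (0 : ℝ) < 1 / 256 by norm_num)),
    ev_negc (show (0 : ℝ) < 24 by norm_num) (show (0 : ℝ) < 1 / 8 by norm_num),
    LU 2048 (by norm_num), LD 2048 (by norm_num), KU 2048 (by norm_num), KL 2048 (by norm_num),
    ev_q0, ev_qle (show (0 : ℝ) < 1 / 10 by norm_num), ev_ge 1] with ⟨n, q⟩ q1 q2 q3 q4 q5 q6 q7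
      q8 f1 f2 f3 f4 hq hq1 hn
  dsimp only at q1 q2 q3 q4 q5 q6 q7 q8 f1 f2 f3 f4 hq hq1 hn ⊢
  intro y hy1 hy2 v hv1 hv2 L hL1 hL2 hap hA1 hA2
  unfold LinkUpP at f1
  unfold LinkDnP at f2
  unfold KampUpP at f3
  unfold KampLowP at f4
  have hn1 : (1 : ℝ) ≤ n := by exact_mod_cast hn
  have hn0 : (0 : ℝ) < n := by linarith
  obtain ⟨t, ht⟩ : ∃ t, t = q / 10 := ⟨_, rfl⟩
  have ht0 : 0 < t := by rw [ht]; positivity
  have ht1 : t ≤ 1 / 100 := by rw [ht]; linarith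
  have ht2 : 30 * t ≤ 3 * q := by rw [ht]; linarith
  have eq2 : q / (10 * 512) = t / 512 := by rw [ht]; field_simp
  have eq3 : q / (10 * (64 * β ^ 2)) = t / (64 * β ^ 2) := by rw [ht]; field_simp
  have eq4 : q / (10 * (64 * β ^ 3)) = t / (64 * β ^ 3) := by rw [ht]; field_simp
  have eq5 : q / (10 * (4 * β)) = t / (4 * β) := by rw [ht]; field_simp
  rw [← ht] at q1
  rw [eq2] at q2
  rw [eq3] at q3
  rw [eq4, one_mul] at q4
  rw [eq5, one_mul] at q5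
  -- the numbers
  obtain ⟨D, hD⟩ : ∃ D, D = (n : ℝ) ^ (-(24 * q)) := ⟨_, rfl⟩
  obtain ⟨S, hS⟩ : ∃ S, S = (n : ℝ) ^ (-(10 * q)) := ⟨_, rfl⟩
  obtain ⟨S', hS'⟩ : ∃ S', S' = (n : ℝ) ^ (-(11 * q)) := ⟨_, rfl⟩
  obtain ⟨θ, hθ⟩ : ∃ θ, θ = (n : ℝ) ^ (-(45 * q)) := ⟨_, rfl⟩
  obtain ⟨q0, hq0⟩ : ∃ q0, q0 = (n : ℝ) ^ (-(24 * q + 11 * q + q)) := ⟨_, rfl⟩
  obtain ⟨g0, hg0⟩ : ∃ g0, g0 = (n : ℝ) ^ (-(36 * q)) := ⟨_, rfl⟩
  obtain ⟨W, hW⟩ : ∃ W, W = (n : ℝ) ^ (25 * q) := ⟨_, rfl⟩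
  have hD0 : 0 < D := by rw [hD]; positivity
  have hS0 : 0 < S := by rw [hS]; positivity
  have hS'0 : 0 < S' := by rw [hS']; positivity
  have hθ0 : 0 < θ := by rw [hθ]; positivity
  have hq00 : 0 < q0 := by rw [hq0]; positivity
  have hg00 : 0 < g0 := by rw [hg0]; positivity
  have hT0 : 0 < (n : ℝ) ^ (q / 2) := by positivity
  have hS1 : S ≤ 1 := by rw [hS]; exact Real.rpow_le_one_of_one_le_of_nonpos hn1 (by linarith)
  have eG : (n : ℝ) ^ (1 - 36 * q) = n * g0 := by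
    rw [hg0, show (1 - 36 * q : ℝ) = 1 + -(36 * q) by ring, Real.rpow_add hn0, Real.rpow_one]
  have eT : (n : ℝ) ^ (1 + q / 2) = n * (n : ℝ) ^ (q / 2) := by
    rw [Real.rpow_add hn0, Real.rpow_one]
  have x0 : 0 < (n : ℝ) ^ (-(1 / 6) + 1000 * q) := Real.rpow_pos_of_pos hn0 _
  have hy0 : 0 < y := x0.trans_le hy1
  have hy64 : y ≤ 1 / 64 := by linarith
  have c1 : 512 * D ≤ t * S' ^ 2 := by
    have e1 : D = (n : ℝ) ^ (-(2 * q)) * S' ^ 2 := by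
      rw [hD, hS', ← Real.rpow_natCast, ← Real.rpow_mul hn0.le, ← Real.rpow_add hn0]
      congr 1
      push_cast
      ring
    have h5 := mul_le_mul_of_nonneg_right q2 (show 0 ≤ 512 * S' ^ 2 by positivity)
    rw [e1]
    linarith
  have c2 : 64 * β ^ 2 * θ * (n : ℝ) ^ (q / 2) * S ≤ t * D ^ 2 := by
    have e1 : θ * (n : ℝ) ^ (q / 2) * S = (n : ℝ) ^ (-(13 / 2 * q)) * D ^ 2 := by
      rw [hD, hS, hθ, ← Real.rpow_natCast, ← Real.rpow_mul hn0.le, ← Real.rpow_add hn0,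
        ← Real.rpow_add hn0, ← Real.rpow_add hn0]
      congr 1
      push_cast
      ring
    have h5 := mul_le_mul_of_nonneg_right q3 (show 0 ≤ 64 * β ^ 2 * D ^ 2 by positivity)
    have e2 : t / (64 * β ^ 2) * (64 * β ^ 2 * D ^ 2) = t * D ^ 2 := by field_simp
    rw [e2] at h5
    calc 64 * β ^ 2 * θ * (n : ℝ) ^ (q / 2) * S = 64 * β ^ 2 * (θ * (n : ℝ) ^ (q / 2) * S) := by
          ring
      _ = (n : ℝ) ^ (-(13 / 2 * q)) * (64 * β ^ 2 * D ^ 2) := by rw [e1]; ring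
      _ ≤ _ := h5
  have c3 : 16 * β ^ 2 * q0 + g0 ≤ t * (D * S') / (2 * β) := by
    have e1 : q0 = (n : ℝ) ^ (-q) * (D * S') := by
      rw [hq0, hD, hS', ← Real.rpow_add hn0, ← Real.rpow_add hn0]
      congr 1
      ring
    have e2 : g0 = (n : ℝ) ^ (-q) * (D * S') := by
      rw [hg0, hD, hS', ← Real.rpow_add hn0, ← Real.rpow_add hn0]
      congr 1
      ring
    have h5 := mul_le_mul_of_nonneg_right q4 (show 0 ≤ 16 * β ^ 2 * (D * S') by positivity)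
    have h6 := mul_le_mul_of_nonneg_right q5 (show 0 ≤ D * S' by positivity)
    have e3 : t / (64 * β ^ 3) * (16 * β ^ 2 * (D * S')) = t * (D * S') / (4 * β) := by
      field_simp
      ring
    have e4 : t / (4 * β) * (D * S') = t * (D * S') / (4 * β) := by ring
    have e5 : t * (D * S') / (2 * β) = t * (D * S') / (4 * β) + t * (D * S') / (4 * β) := by ring
    rw [e3] at h5
    rw [e4] at h6
    rw [e5]
    refine add_le_add ?_ ?_
    · calc 16 * β ^ 2 * q0 = (n : ℝ) ^ (-q) * (16 * β ^ 2 * (D * S')) := by rw [e1]; ring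
        _ ≤ _ := h5
    · rw [e2]
      exact h6
  have hWD : 512 * β * (n : ℝ) ^ (q / 2) ≤ W * D := by
    have e1 : W * D = (n : ℝ) ^ (1 / 2 * q) * (n : ℝ) ^ (q / 2) := by
      rw [hW, hD, ← Real.rpow_add hn0, ← Real.rpow_add hn0]
      congr 1
      ring
    rw [e1]
    exact mul_le_mul_of_nonneg_right q6 hT0.le
  rw [← hD] at hv1 hv2 f1 f2 f3 f4 q8
  rw [← hS'] at hL1 f3 f4
  rw [← hS] at hL2 f3 f4
  rw [← hθ] at f1 f2 q1
  rw [← hq0] at f3 f4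
  rw [← hW, eG] at f1 f2
  have hv : 0 < v := lt_of_lt_of_le (by positivity) hv1
  have hL0 : 0 < L := lt_of_lt_of_le (by positivity) hL1
  have h4v : 4 * v ≤ y ^ 2 := by
    have h5 : 4 * v ≤ 512 * D * y * y ^ 2 := by
      linarith [show 512 * D * y * y ^ 2 = 4 * (128 * (D * y ^ 3)) by ring]
    have h6 : 512 * D * y ≤ 1 := by
      calc 512 * D * y ≤ 512 * (1 / 8) * (1 / 64) := by gcongr
        _ = 1 := by norm_num
    have h7 := mul_le_mul_of_nonneg_right h6 (sq_nonneg y)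
    linarith
  -- the slope
  obtain ⟨a, ha⟩ : ∃ a, a = H122.Asec β (fun n => Phn n β) n y v (2 * v) - 1 := ⟨_, rfl⟩
  have hae := asec_eq (n := n) (β := β) (y := y) (v := v) hn hβ0 hv
  rw [← ha] at hae
  have ha1 : L / 2 ≤ a := by linarith
  have ha2 : a ≤ L := by linarith
  have ha0 : 0 < a := by linarith
  obtain ⟨δ, hδ⟩ : ∃ δ, δ = 64 * β * θ * (n : ℝ) ^ (q / 2) * y ^ 5 / v := ⟨_, rfl⟩
  have hδ0 : 0 ≤ δ := by rw [hδ]; positivity
  have k1 := num_δ hβ hy0 hv hD0 ht0 hθ0 hT0.le hv1 (ha2.trans hL2) c2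
  have k2 := num_P hβ hy0 hv hS'0 ht0 hv2 hL1 ha1 c1
  rw [← hδ] at k1
  have hδa : δ ≤ a / 2 := by
    have h5 : δ * a ≤ t * (t * a ^ 2) := k1.trans (mul_le_mul_of_nonneg_left k2 ht0.le)
    have h6 : t * (t * a ^ 2) ≤ 1 / 2 * (1 * a ^ 2) := by gcongr <;> linarith
    have h7 : 1 / 2 * (1 * a ^ 2) = a / 2 * a := by ring
    rw [h7] at h6
    exact le_of_mul_le_mul_right (h5.trans h6) ha0
  have hk : ∀ u : ℝ, y / 2 ≤ u → u ≤ 2 * y →
      KV n β u (2 * v) ≤ n * (n : ℝ) ^ (q / 2) * u ^ 6 := by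
    intro u h5 h6
    have := (hap u h5 h6).kk (2 * v) (by linarith) (by linarith)
    rwa [eT] at this
  exact kdiff_one hn hβ hy0 hy64 ht0 ht1 ht2 hθ0 q1 hT0.le hD0 hS0 hS1 hS'0 hq00.le hv1 hv2 hL1
    hL2 ha1 ha2 c1 c2 c3 hae hk hδ
    (fun ap h5 h6 => up_in hn hβ hy0 hy64 hθ0 (by linarith) hy1 hy2 hD0 q8 hS0 hS'0 hv1 hv2
      (by linarith) (ha2.trans hL2) hδ0 hδa hWD hap h4v f1 f3 h5 h6)
    (fun am h5 h6 => lo_in hn hβ hy0 hy64 hθ0 (by linarith) hy1 hy2 hD0 q8 hS0 hS'0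
      (by positivity) hv1 hv2 (by linarith) (ha2.trans hL2) hδ0 hδa hWD hap h4v f2 f4 h5 h6)

end Vale.Agent.P146.S3
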