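import Vale.Agent.P146.H558.S3FlowN
import Vale.Agent.P146.H558.S3KDiff
import Vale.Agent.P146.H260.Dev2

set_option linter.all false

/-!
# P146, S3: the lower flow together with the upper law

`joint_of`: from the start, the inequality for the difference of the entropies and the upper law at
one field (both with the a priori package as hypothesis): the response and the entropy without
field at all `x ∈ [n ^ (-1/6 + 1000 q), n ^ (-b₁)]`, the upper bound with a constant.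
-/

open MeasureTheory ProbabilityTheory Filter Topology Set

namespace Vale.Agent.P146.S3

open Vale.Agent.P146
open Vale.Agent.P146.H9 (Phn KV)
open Vale.Agent.P146.H205.U4
open Vale.Agent.P146.H178 (AP)
open Vale.Agent.P146.H122 (Asec)

/-- **The base**: the entropy without field at the large exponents. -/
theorem base_up {β : ℝ} (hβ : 1 < β) : ∃ C : ℝ, 0 < C ∧ ∀ᶠ n : ℕ in atTop, ∀ w : ℝ,
    (n : ℝ) ^ (-(1 / 16) : ℝ) ≤ w → w ≤ 1 / 2 → KV n β w 0 ≤ C * (n * w ^ 6) := by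
  obtain ⟨c, C, hc, hC, h⟩ := H260.Dev.mid hβ (show (0 : ℝ) < 1 / 16 by norm_num) (by norm_num)
  refine ⟨64 * C, by positivity, ?_⟩
  filter_upwards [h, eventually_ge_atTop 1] with n g hn w hw hw1
  have hn0 : (0 : ℝ) < n := by exact_mod_cast hn
  have hw0 : 0 < w := (Real.rpow_pos_of_pos hn0 _).trans_le hw
  have h1 := H178.KV_le_dbl n β 0 hw0
  have h2 := H9.Phn_kap β n hw0 (show 0 < 2 * w by positivity)
  have h3 := H877.kap_nonneg β n w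
  have h4 : H877.kap β n (2 * w) ≤ C * n * (2 * w) ^ 6 := (g (2 * w) (by linarith) (by linarith)).2
  rw [h2] at h1
  have e : 2 * w * (H877.kap β n (2 * w) / (2 * w) - H877.kap β n w / w) =
      H877.kap β n (2 * w) - 2 * H877.kap β n w := by
    field_simp
  rw [e] at h1
  linarith [show C * n * (2 * w) ^ 6 = 64 * C * (n * w ^ 6) by ring]

/-- the error of contiguity is small -/
lemma err_small {β q b₁ : ℝ} {n : ℕ} (hβ : 1 < β) (hn : 1 ≤ n) (hq : 0 < q)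
    (h1 : (n : ℝ) ^ (-b₁) ≤ 1 / 10 ^ 5) (h2 : 6 * (1 + Real.log n) ≤ (n : ℝ) ^ (6000 * q))
    (h3 : 3 * β ≤ (n : ℝ) ^ (6000 * q)) {w : ℝ} (hw : (n : ℝ) ^ (-(1 / 6) + 1000 * q) ≤ w)
    (hw1 : w ≤ 64 * (n : ℝ) ^ (-b₁)) :
    err β n w (512 * ((n : ℝ) ^ (-(24 * q)) * w ^ 3)) ≤ n * w ^ 5 := by
  have hn1 : (1 : ℝ) ≤ n := by exact_mod_cast hn
  have hn0 : (0 : ℝ) < n := by linarith
  have hw0 : 0 < w := (Real.rpow_pos_of_pos hn0 _).trans_le hw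
  have hw2 : w ≤ 64 / 10 ^ 5 := by linarith
  have hw3 : w ≤ 1 := by linarith
  obtain ⟨D, hD⟩ : ∃ D, D = (n : ℝ) ^ (-(24 * q)) := ⟨_, rfl⟩
  have hD0 : 0 < D := by rw [hD]; exact Real.rpow_pos_of_pos hn0 _
  have hD1 : D ≤ 1 := by
    rw [hD]
    exact Real.rpow_le_one_of_one_le_of_nonpos hn1 (by linarith)
  rw [← hD]
  -- `n w ^ 6`
  have h6 : (n : ℝ) ^ (6000 * q) ≤ n * w ^ 6 := by
    have h7 : ((n : ℝ) ^ (-(1 / 6) + 1000 * q)) ^ 6 ≤ w ^ 6 :=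
      pow_le_pow_left₀ (by positivity) hw 6
    have h8 : ((n : ℝ) ^ (-(1 / 6) + 1000 * q)) ^ 6 = (n : ℝ) ^ (-1 + 6000 * q) := by
      rw [← Real.rpow_natCast, ← Real.rpow_mul hn0.le]
      congr 1
      push_cast
      ring
    have h9 : (n : ℝ) ^ (6000 * q) = n * (n : ℝ) ^ (-1 + 6000 * q) := by
      nth_rewrite 2 [← Real.rpow_one (n : ℝ)]
      rw [← Real.rpow_add hn0]
      congr 1
      ring
    rw [h9, ← h8]
    exact mul_le_mul_of_nonneg_left h7 hn0.le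
  have hnw : 0 ≤ n * w ^ 5 := by positivity
  have h65 : n * w ^ 6 ≤ n * w ^ 5 := by
    have : w ^ 6 ≤ w ^ 5 := pow_le_pow_of_le_one hw0.le hw3 (by norm_num)
    exact mul_le_mul_of_nonneg_left this hn0.le
  have t1 : 2 * (n * w * (512 * (D * w ^ 3)) ^ 2) / β ^ 2 ≤ 1 / 3 * (n * w ^ 5) := by
    rw [div_le_iff₀ (by positivity)]
    have hβ2 : 1 ≤ β ^ 2 := one_le_pow₀ hβ.le
    have h7 : D ^ 2 * w ^ 2 ≤ 1 * (64 / 10 ^ 5) ^ 2 := by
      have a1 : D ^ 2 ≤ 1 := pow_le_one₀ hD0.le hD1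
      have a2 : w ^ 2 ≤ (64 / 10 ^ 5) ^ 2 := pow_le_pow_left₀ hw0.le hw2 2
      exact mul_le_mul a1 a2 (by positivity) (by norm_num)
    calc 2 * (n * w * (512 * (D * w ^ 3)) ^ 2) = 524288 * (D ^ 2 * w ^ 2) * (n * w ^ 5) := by ring
      _ ≤ 524288 * (1 * (64 / 10 ^ 5) ^ 2) * (n * w ^ 5) := by gcongr
      _ ≤ 1 / 3 * (n * w ^ 5) := by
          refine mul_le_mul_of_nonneg_right ?_ hnw
          norm_num
      _ ≤ 1 / 3 * (n * w ^ 5) * β ^ 2 := le_mul_of_one_le_right (by positivity) hβ2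
  have t3 : 2 * Real.log (2 * n) / w ≤ 1 / 3 * (n * w ^ 5) := by
    rw [div_le_iff₀ hw0]
    have h7 : Real.log (2 * n) ≤ 1 + Real.log n := by
      rw [Real.log_mul (by norm_num) hn0.ne']
      have := Real.log_two_lt_d9
      linarith
    linarith [show 1 / 3 * (n * w ^ 5) * w = 1 / 3 * (n * w ^ 6) by ring]
  unfold err
  linarith

/-- **The lower flow together with the upper law.** -/
theorem joint_of {β b₁ C : ℝ} (hβ : 1 < β) (hb₁ : 0 < b₁) (hb₂ : b₁ ≤ 1 / 16) (hC : 0 ≤ C)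
    (hS : StartS β b₁ (fun n => Phn n β)) (hK : EV fun n q => KDiffQ β b₁ q n)
    (hU : EV fun n q => ∀ y : ℝ, (n : ℝ) ^ (-(1 / 6) + 1000 * q) ≤ 8 * y →
      y ≤ 8 * (n : ℝ) ^ (-b₁) → ∀ V : ℝ, (n : ℝ) ^ (-(24 * q)) * y ^ 3 ≤ 8 * V →
      V ≤ 8 * ((n : ℝ) ^ (-(24 * q)) * y ^ 3) →
      (∀ u : ℝ, y ≤ u → u ≤ 2 * y → AP β (q / 2) n u (2 * V)) → KV n β y V ≤ C * (n * y ^ 6)) :
    ∃ G : ℝ, 0 < G ∧ EV fun n q => ∀ x : ℝ, (n : ℝ) ^ (-(1 / 6) + 1000 * q) ≤ x →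
      x ≤ (n : ℝ) ^ (-b₁) →
      (n : ℝ) ^ (-(11 * q)) * x ^ 2 ≤ H877.At β n x ((n : ℝ) ^ (-(24 * q)) * x ^ 3) - 1 ∧
      KV n β x 0 ≤ G * (n * x ^ 6) := by
  obtain ⟨Cb, hCb, hbase⟩ := base_up hβ
  obtain ⟨G, hG⟩ : ∃ G, G = 66 * C + 2 + Cb := ⟨_, rfl⟩
  have hGC : 66 * C + 2 ≤ G := by rw [hG]; linarith
  have hGb : Cb ≤ G := by rw [hG]; linarith
  have hG0 : 0 < G := by rw [hG]; positivity
  have hβ0 : 0 < β := by linarith
  refine ⟨G, hG0, ?_⟩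
  filter_upwards [hS, hK, hU, ev_atTop hbase,
    ev_atTop (H178.ev_neg hb₁ (show (0 : ℝ) < 1 / 10 ^ 5 by norm_num)),
    ev_rpow (show (0 : ℝ) < 1 / 2 by norm_num) (16 * 10 ^ 7 * G),
    ev_rpow (show (0 : ℝ) < 1 by norm_num) 256,
    ev_logpow (show (0 : ℝ) < 6000 by norm_num) 6,
    ev_rpow (show (0 : ℝ) < 6000 by norm_num) (3 * β), ev_q0,
    ev_qle (show (0 : ℝ) < 1 / 10 ^ 4 by norm_num), ev_ge 1] with ⟨n, q⟩ g1 g2 g3 g4 g5 g6 g7 g8 g9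
      hq hq1 hn
  dsimp only at g1 g2 g3 g4 g5 g6 g7 g8 g9 hq hq1 hn ⊢
  intro x hx hx1
  have hn1 : (1 : ℝ) ≤ n := by exact_mod_cast hn
  have hn0 : (0 : ℝ) < n := by linarith
  obtain ⟨y1, κ, hy1l, hy1u, hκ1, hκ2, st, gA⟩ := g1
  have hb0 : 0 < (n : ℝ) ^ (-b₁) := Real.rpow_pos_of_pos hn0 _
  have hy10 : 0 < y1 := lt_of_lt_of_le hb0 hy1l
  obtain ⟨x0, hx0⟩ : ∃ x0, x0 = (n : ℝ) ^ (-(1 / 6) + 1000 * q) := ⟨_, rfl⟩
  obtain ⟨D, hD⟩ : ∃ D, D = (n : ℝ) ^ (-(24 * q)) := ⟨_, rfl⟩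
  obtain ⟨S, hS'⟩ : ∃ S, S = (n : ℝ) ^ (-(10 * q)) := ⟨_, rfl⟩
  obtain ⟨S', hS''⟩ : ∃ S', S' = (n : ℝ) ^ (-(11 * q)) := ⟨_, rfl⟩
  have hx00 : 0 < x0 := by rw [hx0]; exact Real.rpow_pos_of_pos hn0 _
  have hD0 : 0 < D := by rw [hD]; exact Real.rpow_pos_of_pos hn0 _
  have hS0 : 0 < S := by rw [hS']; exact Real.rpow_pos_of_pos hn0 _
  have hD1 : D ≤ 1 := by
    rw [hD]
    exact Real.rpow_le_one_of_one_le_of_nonpos hn1 (by linarith)
  have hD256 : 256 * D ≤ (n : ℝ) ^ (-(23 * q)) := by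
    have e1 : (n : ℝ) ^ (-(23 * q)) = (n : ℝ) ^ (1 * q) * D := by
      rw [hD, ← Real.rpow_add hn0]
      congr 1
      ring
    rw [e1]
    exact mul_le_mul_of_nonneg_right g7 hD0.le
  have hx01 : x0 ≤ y1 := by
    rw [hx0]
    exact (hx.trans hx1).trans hy1l
  have hSS : ∀ z : ℝ, x0 ≤ z → z ≤ y1 → S' ≤ S * (z / y1) ^ (2 * (3 * q)) := by
    intro z hz hzy
    have h1 : (n : ℝ) ^ (-(1 / 6) : ℝ) ≤ z / y1 := by
      rw [le_div_iff₀ hy10]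
      refine le_trans ?_ hz
      have h0 : (n : ℝ) ^ (-(1 / 6) : ℝ) * y1 ≤ (n : ℝ) ^ (-(1 / 6) : ℝ) * 1 :=
        mul_le_mul_of_nonneg_left (by linarith) (Real.rpow_pos_of_pos hn0 _).le
      rw [mul_one] at h0
      refine h0.trans ?_
      rw [hx0]
      exact Real.rpow_le_rpow_of_exponent_le hn1 (by linarith)
    have h2 : ((n : ℝ) ^ (-(1 / 6) : ℝ)) ^ (2 * (3 * q)) ≤ (z / y1) ^ (2 * (3 * q)) :=
      Real.rpow_le_rpow (by positivity) h1 (by linarith)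
    have h3 : S' = S * ((n : ℝ) ^ (-(1 / 6) : ℝ)) ^ (2 * (3 * q)) := by
      rw [hS', hS'', ← Real.rpow_mul hn0.le, ← Real.rpow_add hn0]
      congr 1
      ring
    rw [h3]
    exact mul_le_mul_of_nonneg_left h2 hS0.le
  unfold KDiffQ at g2
  rw [← hD, ← hS'] at st
  rw [← hD] at g3
  rw [← hD, ← hS', ← hS''] at g2
  rw [← hx0] at g2 g3 hx
  have key := flow_n (n := n) (β := β) (s0 := q / 2) (G := G) (C := C) (D := D) (S := S) (S' := S')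
    (ι := 3 * q) (κ := κ) (x0 := x0) (y1 := y1) hn hβ0
    (fun x hx hx1 => H320.Conc.Phn_conc n β hx (by linarith)) hx00 hy10 (by linarith) hD0
    (by linarith) hS0 (by linarith) hκ1 hκ2 hSS hC hGC ?_ ?_ st ?_ ?_ ?_ ?_ x
    ⟨hx, hx1.trans hy1l⟩
  · rw [← hS'', ← hD]
    exact key
  · have e : q / 2 = 1 / 2 * q := by ring
    rw [e]
    exact g6
  · intro w h1 h2
    have hw0 : 0 < w := hy10.trans_le h1
    have h3 : (n : ℝ) ^ (-(1 / 16) : ℝ) ≤ (n : ℝ) ^ (-b₁) :=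
      Real.rpow_le_rpow_of_exponent_le hn1 (by linarith)
    refine (g4 w (by linarith) (by linarith)).trans ?_
    exact mul_le_mul_of_nonneg_right hGb (by positivity)
  · intro z hz W hW hW2
    have h1 := gA z hz W hW ?_
    · rwa [H178.at_eq] at h1
    · have hz0 : 0 < z := hy10.trans_le hz.1
      have h2 := mul_le_mul_of_nonneg_right hD256 (show 0 ≤ z ^ 3 by positivity)
      linarith
  · intro y h1 h2 v h3 h4 L h5 h6 h7 h8 h9
    exact g2 y h1 (by linarith) v h3 h4 L h5 h6 h7 h8 h9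
  · intro y h1 h2 V h3 h4 h5
    have hy0 : 0 < y := hx00.trans_le h1
    exact g3 y (by linarith) (by linarith) V h3 h4 h5
  · intro w h1 h2
    rw [hD]
    exact err_small hβ hn hq g5 g8 g9 (by rw [← hx0]; exact h1) (by linarith)

end Vale.Agent.P146.S3
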