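import Vale.Agent.P146.H558.S3UL
import Vale.Agent.P146.H178.KSlope

set_option linter.all false

/-!
# P146, S3: the lower flow together with the upper law, for one `n`
-/

open MeasureTheory ProbabilityTheory Filter Topology Set

namespace Vale.Agent.P146.S3

open Vale.Agent.P146
open Vale.Agent.P146.H9 (Phn KV)
open Vale.Agent.P146.H205.U4
open Vale.Agent.P146.H178 (AP)
open Vale.Agent.P146.H122 (Asec)

variable {n : ℕ} {β s0 G C D S S' ι κ x0 y1 : ℝ}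

lemma anti1 (hβ : 0 < β)
    (cv : ∀ x : ℝ, 0 < x → x ≤ 1 / 2 → ConcaveOn ℝ (Ici 0) (Phn n β x)) {x V w v : ℝ}
    (hx : 0 < x) (hx1 : x ≤ 1 / 2) (hV : 0 < V) (hVv : V ≤ v) (hw : 0 ≤ w) (hwv : w < v) :
    Asec β (fun n => Phn n β) n x w v ≤ H877.At β n x V := by
  have h := H178.At_anti hβ (Φ := fun n => Phn n β) (cv x hx hx1) hV hVv hw hwv
  rwa [H178.at_eq] at h

/-- **The lower flow together with the upper law, for one `n`.** -/
theorem flow_n (hn : 1 ≤ n) (hβ : 0 < β)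
    (cv : ∀ x : ℝ, 0 < x → x ≤ 1 / 2 → ConcaveOn ℝ (Ici 0) (Phn n β x))
    (hx0 : 0 < x0) (hy10 : 0 < y1) (hy1 : y1 ≤ 1 / 64) (hD0 : 0 < D) (hDβ : D ≤ β)
    (hS0 : 0 < S) (hι : 0 < ι) (hκ1 : 1 ≤ κ) (hκ2 : κ ≤ 64)
    (hSS : ∀ z : ℝ, x0 ≤ z → z ≤ y1 → S' ≤ S * (z / y1) ^ (2 * ι))
    (hC : 0 ≤ C) (hGC : 66 * C + 2 ≤ G) (hs : 16 * 10 ^ 7 * G ≤ (n : ℝ) ^ s0)
    (hb : ∀ w : ℝ, y1 ≤ w → w ≤ 16 * y1 → KV n β w 0 ≤ G * (n * w ^ 6))
    (st : S * y1 ^ 2 ≤ Asec β (fun n => Phn n β) n y1 (κ * (D * y1 ^ 3))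
      (2 * (κ * (D * y1 ^ 3))) - 1)
    (g6 : ∀ z ∈ Icc y1 (2 * y1), ∀ W : ℝ, 0 < W → W ≤ 256 * D * z ^ 3 → 1 ≤ H877.At β n z W)
    (KD : ∀ y : ℝ, x0 ≤ y → y ≤ y1 → ∀ v : ℝ, D * y ^ 3 ≤ v → v ≤ 128 * (D * y ^ 3) →
      ∀ L : ℝ, S' * y ^ 2 ≤ L → L ≤ S * y ^ 2 →
      (∀ u : ℝ, y / 2 ≤ u → u ≤ 2 * y → AP β s0 n u (4 * v)) →
      1 + L / 2 ≤ Asec β (fun n => Phn n β) n y v (2 * v) →
      Asec β (fun n => Phn n β) n y v (2 * v) ≤ 1 + L →
      KV n β y (2 * v) - KV n β y v ≤ (1 + ι) * (n * y * v / β) * L)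
    (UV : ∀ y : ℝ, x0 ≤ y → y ≤ 2 * y1 → ∀ V : ℝ, D * y ^ 3 ≤ 8 * V → V ≤ 8 * (D * y ^ 3) →
      (∀ u : ℝ, y ≤ u → u ≤ 2 * y → AP β s0 n u (2 * V)) → KV n β y V ≤ C * (n * y ^ 6))
    (he : ∀ w : ℝ, x0 ≤ w → w ≤ 16 * y1 → err β n w (512 * (D * w ^ 3)) ≤ n * w ^ 5) :
    ∀ x ∈ Icc x0 y1, S' * x ^ 2 ≤ H877.At β n x (D * x ^ 3) - 1 ∧
      KV n β x 0 ≤ G * (n * x ^ 6) := by
  have hn1 : (1 : ℝ) ≤ n := by exact_mod_cast hn
  have hn0 : (0 : ℝ) < n := by linarith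
  have hκ0 : 0 < κ := by linarith
  have hG1 : 1 ≤ G := by linarith
  have he16 : ∀ w : ℝ, x0 ≤ w → w ≤ 16 * y1 → err β n w (16 * (D * w ^ 3)) ≤ n * w ^ 5 := by
    intro w h1 h2
    have hw0 : 0 < w := hx0.trans_le h1
    have h3 : 0 < D * w ^ 3 := by positivity
    exact (err_monoV β n hw0.le (by linarith) (by linarith)).trans (he w h1 h2)
  obtain ⟨Ce, hCe⟩ : ∃ Ce, Ce = 2 * (1 + ι) := ⟨_, rfl⟩
  obtain ⟨ℓ, hℓ⟩ : ∃ ℓ, ℓ = S * y1 ^ (-(2 * ι)) := ⟨_, rfl⟩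
  have hℓ0 : 0 < ℓ := by rw [hℓ]; exact mul_pos hS0 (Real.rpow_pos_of_pos hy10 _)
  -- the barrier
  have hLx : ∀ z : ℝ, 0 < z → ℓ * z ^ Ce = S * z ^ 2 * (z / y1) ^ (2 * ι) := by
    intro z hz
    rw [hℓ, hCe, show (2 * (1 + ι) : ℝ) = (2 : ℕ) + 2 * ι by push_cast; ring, Real.rpow_add hz,
      Real.rpow_natCast, Real.div_rpow hz.le hy10.le, Real.rpow_neg hy10.le]
    field_simp
  have hLup : ∀ z : ℝ, 0 < z → z ≤ y1 → ℓ * z ^ Ce ≤ S * z ^ 2 := by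
    intro z hz hzy
    rw [hLx z hz]
    have h1 : (z / y1) ^ (2 * ι) ≤ 1 :=
      Real.rpow_le_one (by positivity) (by rw [div_le_one hy10]; exact hzy) (by linarith)
    have h2 : 0 ≤ S * z ^ 2 := by positivity
    nlinarith
  have hLlo : ∀ z : ℝ, x0 ≤ z → z ≤ y1 → S' * z ^ 2 ≤ ℓ * z ^ Ce := by
    intro z hz hzy
    have hz0 : 0 < z := lt_of_lt_of_le hx0 hz
    rw [hLx z hz0]
    have h5 : 0 ≤ z ^ 2 := by positivity
    have h6 := mul_le_mul_of_nonneg_right (hSS z hz hzy) h5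
    linarith [show S * (z / y1) ^ (2 * ι) * z ^ 2 = S * z ^ 2 * (z / y1) ^ (2 * ι) by ring]
  have hcb : (0 : ℝ) < 2 * β / n := by positivity
  have hsub : ∀ z ∈ Icc x0 y1, 0 < z ∧ z ≤ 1 / 2 := fun z hz =>
    ⟨lt_of_lt_of_le hx0 hz.1, hz.2.trans (by linarith)⟩
  have hmono : MonotoneOn (fun z : ℝ => κ * (D * z ^ 3)) (Icc x0 y1) := by
    intro a ha b hb hab
    have h1 : 0 ≤ a := (hsub a ha).1.le
    exact mul_le_mul_of_nonneg_left
      (mul_le_mul_of_nonneg_left (pow_le_pow_left₀ h1 hab 3) hD0.le) hκ0.le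
  -- the response at the fields `2 D z ^ 3` from the barrier above `y`
  have resp : ∀ y ∈ Icc x0 y1, (∀ u ∈ Icc y y1, 1 + ℓ * u ^ Ce ≤
      2 * β / n * H122.sec (Phn n β u) (κ * (D * u ^ 3)) (2 * (κ * (D * u ^ 3)))) →
      ∀ z : ℝ, y ≤ z → z ≤ 2 * y1 → 1 ≤ H877.At β n z (2 * (D * z ^ 3)) := by
    intro y hy hist z hyz hz
    have hz0 : 0 < z := (hsub y hy).1.trans_le hyz
    have hDz : 0 < D * z ^ 3 := by positivity
    rcases le_total z y1 with h1 | h1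
    · have h2 := hist z ⟨hyz, h1⟩
      have h3 : 0 < ℓ * z ^ Ce := mul_pos hℓ0 (Real.rpow_pos_of_pos hz0 _)
      have h4 : D * z ^ 3 ≤ κ * (D * z ^ 3) := le_mul_of_one_le_left hDz.le hκ1
      have h5 := anti1 hβ cv (x := z) (V := 2 * (D * z ^ 3)) (w := κ * (D * z ^ 3))
        (v := 2 * (κ * (D * z ^ 3))) hz0 (by linarith) (by linarith) (by linarith) (by linarith)
        (by linarith)
      unfold Asec at h5
      linarith
    · exact g6 z ⟨h1, hz⟩ _ (by linarith) (by linarith)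
  -- the upper law from the barrier above `y`
  have upl : ∀ y ∈ Icc x0 y1, (∀ u ∈ Icc y y1, 1 + ℓ * u ^ Ce ≤
      2 * β / n * H122.sec (Phn n β u) (κ * (D * u ^ 3)) (2 * (κ * (D * u ^ 3)))) →
      ∀ z ∈ Icc y y1, KV n β z 0 ≤ G * (n * z ^ 6) := by
    intro y hy hist
    exact ul hn hβ cv (hsub y hy).1 hy1 hD0 hDβ hC hGC hs hb (resp y hy hist)
      (fun z h1 h2 => UV z (hy.1.trans h1) h2) (fun w h1 h2 => he16 w (hy.1.trans h1) h2)
  have key := H178.flow_powH (Φ := Phn n β) (K := KV n β) (V := fun z => 2 * (κ * (D * z ^ 3)))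
    (w := fun z => κ * (D * z ^ 3)) (c := 2 * β / n) (x0 := x0) (y1 := y1) (ρ := 5 / 4)
    (η := 1 / 2) (ℓ := ℓ) (C := Ce) hx0 (by norm_num) (by norm_num) hcb hℓ0
    (fun z hz => cv z (hsub z hz).1 (hsub z hz).2)
    (fun z hz v _ => H9.hasDerivAt_Phn n β v (hsub z hz).1)
    (fun a ha b hb hab => by
      have := hmono ha hb hab
      simp only at this ⊢
      linarith) hmono
    (fun z hz => by have := (hsub z hz).1; positivity)
    (fun z hz => by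
      have h1 := (hsub z hz).1
      have : 0 < κ * (D * z ^ 3) := by positivity
      linarith) ?_ ?_
  · intro x hx
    have hxp : 0 < x := (hsub x hx).1
    have h1 := key x hx
    have hv : 0 < D * x ^ 3 := by positivity
    have hv1 : D * x ^ 3 ≤ κ * (D * x ^ 3) := le_mul_of_one_le_left hv.le hκ1
    have h2 := anti1 hβ cv (x := x) (V := D * x ^ 3) (w := κ * (D * x ^ 3))
      (v := 2 * (κ * (D * x ^ 3))) hxp (hsub x hx).2 hv (by linarith) (hv.le.trans hv1)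
      (by linarith)
    unfold Asec at h2
    have h4 := hLlo x hx.1 hx.2
    exact ⟨by linarith, upl x0 ⟨le_rfl, hx.1.trans hx.2⟩ (fun u hu => key u hu) x hx⟩
  · intro z hz y hy hzy hyz hist h1 h2
    have hz0 := (hsub z hz).1
    have hy0 := (hsub y hy).1
    have hyz3 : y ^ 3 ≤ 2 * z ^ 3 := by
      have h3 : y ^ 3 ≤ (5 / 4 * z) ^ 3 := pow_le_pow_left₀ hy0.le hyz 3
      have h4 : (5 / 4 * z) ^ 3 = 125 / 64 * z ^ 3 := by ring
      have h5 : 0 < z ^ 3 := by positivity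
      linarith
    have hzy3 : z ^ 3 ≤ y ^ 3 := pow_le_pow_left₀ hz0.le hzy 3
    have hz30 : 0 < z ^ 3 := by positivity
    have hy30 : 0 < y ^ 3 := by positivity
    have hv0 : 0 < κ * (D * y ^ 3) := by positivity
    have hDz3 : 0 < D * z ^ 3 := by positivity
    have hh : ∃ u ∈ Icc z (2 * z), 1 ≤ H877.At β n u (4 * (κ * (D * y ^ 3))) := by
      have h6 := H178.hist_at (x0 := x0) (y1 := y1) (D := 256 * D) (Φ := fun n => Phn n β)
        (n := n) hβ hD0 hκ0 hκ2 le_rfl (fun z hz => cv z (hsub z hz).1 (hsub z hz).2) hx0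
        hy hz0 hzy hyz (fun u hu => ?_) (fun z hz W hW hW2 => ?_)
      · rwa [H178.at_eq] at h6
      · have h5 : 0 < ℓ * u ^ Ce := mul_pos hℓ0 (Real.rpow_pos_of_pos (hy0.trans_le hu.1) _)
        have h6 := hist u hu
        unfold Asec
        linarith
      · rw [H178.at_eq]
        exact g6 z hz W hW hW2
    have hκδ : D * y ^ 3 ≤ κ * (D * y ^ 3) := le_mul_of_one_le_left (by positivity) hκ1
    have hδz : D * z ^ 3 ≤ D * y ^ 3 := mul_le_mul_of_nonneg_left hzy3 hD0.le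
    have hκδ2 : κ * (D * y ^ 3) ≤ 64 * (D * y ^ 3) :=
      mul_le_mul_of_nonneg_right hκ2 (by positivity)
    have hδz2 : D * y ^ 3 ≤ D * (2 * z ^ 3) := mul_le_mul_of_nonneg_left hyz3 hD0.le
    -- the a priori package
    obtain ⟨u1, hu1, hA1⟩ := hh
    have hap : ∀ u : ℝ, z / 2 ≤ u → u ≤ 2 * z → AP β s0 n u (4 * (κ * (D * y ^ 3))) := by
      intro u h3 h4
      refine ap_hist hn hβ cv hz0 hzy hyz hy.2 hy1 hG1 hs (fun w h5 h6 => upl y hy hist w ⟨h5, h6⟩)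
        hb ?_ hu1.1 hu1.2 (by linarith) ?_ hA1 h3 h4
      · intro w h5 h6
        have hw0 : 0 < w := hz0.trans_le h5
        refine (err_monoV β n hw0.le (by linarith) ?_).trans (he w (hz.1.trans h5) ?_)
        · have h7 : z ^ 3 ≤ w ^ 3 := pow_le_pow_left₀ hz0.le h5 3
          have h8 : D * z ^ 3 ≤ D * w ^ 3 := mul_le_mul_of_nonneg_left h7 hD0.le
          linarith
        · linarith [hz.2]
      · have h5 : 4 * (κ * (D * y ^ 3)) ≤ 512 * (D * z ^ 3) := by linarith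
        have h6 := mul_le_mul_of_nonneg_left h5 (show 0 ≤ 16 * z by linarith)
        have h7 : z ^ 4 ≤ (1 / 64) ^ 4 := pow_le_pow_left₀ hz0.le (by linarith [hz.2]) 4
        have h8 : D * z ^ 4 ≤ β * (1 / 64) ^ 4 := mul_le_mul hDβ h7 (by positivity) hβ.le
        linarith [show 16 * z * (4 * (κ * (D * y ^ 3))) = 16 * (z * (4 * (κ * (D * y ^ 3)))) by
          ring, show 16 * z * (512 * (D * z ^ 3)) = 8192 * (D * z ^ 4) by ring]
    have h3 := KD z hz.1 hz.2 (κ * (D * y ^ 3)) (by linarith) (by linarith)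
      (ℓ * z ^ Ce) (hLlo z hz.1 hz.2) (hLup z hz0 hz.2) hap
      (by unfold Asec; linarith) (by unfold Asec; linarith)
    have h4 := mul_le_mul_of_nonneg_left h3 hcb.le
    refine h4.trans (le_of_eq ?_)
    rw [hCe]
    field_simp
    ring
  · rw [hLx y1 hy10, div_self hy10.ne', Real.one_rpow, mul_one]
    unfold Asec at st
    linarith

end Vale.Agent.P146.S3
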