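import Vale.Agent.P146.H558.S3Flow
import Vale.Agent.P146.H529.S3UpQ

set_option linter.all false

/-!
# P146, S3: the response and the upper law from the inputs of the stage
-/

open MeasureTheory ProbabilityTheory Filter Topology Set

namespace Vale.Agent.P146.S3

open Vale.Agent.P146
open Vale.Agent.P146.H9 (Phn KV)

/-- **The joint flow** from the start, the links, the two halves of the formula and the upper law at
one field. -/
theorem joint {β b₁ C : ℝ} {Ka : ℝ → ℕ → ℝ → ℝ → ℝ → ℝ} (hβ : 1 < β) (hb₁ : 0 < b₁)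
    (hb₂ : b₁ ≤ 1 / 16) (hC : 0 ≤ C) (hS : StartS β b₁ (fun n => Phn n β))
    (LU : LinkUpS β Ka) (LD : LinkDnS β Ka) (KU : KampUpS β b₁ Ka) (KL : KampLowS β b₁ Ka)
    (UV : UpVS β b₁ C) :
    ∃ G : ℝ, 0 < G ∧ EV fun n q => ∀ x : ℝ, (n : ℝ) ^ (-(1 / 6) + 1000 * q) ≤ x →
      x ≤ (n : ℝ) ^ (-b₁) →
      (n : ℝ) ^ (-(11 * q)) * x ^ 2 ≤ H877.At β n x ((n : ℝ) ^ (-(24 * q)) * x ^ 3) - 1 ∧
      KV n β x 0 ≤ G * (n * x ^ 6) :=
  joint_of hβ hb₁ hb₂ hC hS (kdiffQ_of hβ hb₁ LU LD KU KL) (UV 8 (by norm_num))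

end Vale.Agent.P146.S3
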