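import Vale.Agent.P146.H558.S3Flow

set_option linter.all false

/-!
# P146, S3: the lower bound of the entropy without field from the response
-/

open MeasureTheory ProbabilityTheory Filter Topology Set

namespace Vale.Agent.P146.S3

open Vale.Agent.P146
open Vale.Agent.P146.H9 (Phn KV)
open Vale.Agent.P146.H205.U4

/-- **The lower bound of the entropy from the response, for one `n`.** -/
lemma klow_n {β q : ℝ} {n : ℕ} (hβ : 1 < β) (hn : 1 ≤ n) (hq : 0 < q)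
    (h2 : 128 * β ≤ (n : ℝ) ^ q) (h3 : 12 * β ^ 2 ≤ (n : ℝ) ^ (5965 * q))
    (h4 : 12 * β * (1 + Real.log n) ≤ (n : ℝ) ^ (5965 * q))
    {x : ℝ} (hx : (n : ℝ) ^ (-(1 / 6) + 1000 * q) ≤ x) (hx1 : x ≤ 1 / 10 ^ 5)
    (hA : (n : ℝ) ^ (-(11 * q)) * x ^ 2 ≤
      H877.At β n x ((n : ℝ) ^ (-(24 * q)) * x ^ 3) - 1) :
    (n : ℝ) ^ (-(36 * q)) * (n * (2 * x) ^ 6) ≤ KV n β (2 * x) 0 := by
  have hn1 : (1 : ℝ) ≤ n := by exact_mod_cast hn
  have hn0 : (0 : ℝ) < n := by linarith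
  have hβ0 : 0 < β := by linarith
  have hx0 : 0 < x := (Real.rpow_pos_of_pos hn0 _).trans_le hx
  obtain ⟨D, hD⟩ : ∃ D, D = (n : ℝ) ^ (-(24 * q)) := ⟨_, rfl⟩
  obtain ⟨S', hS'⟩ : ∃ S', S' = (n : ℝ) ^ (-(11 * q)) := ⟨_, rfl⟩
  obtain ⟨E, hE⟩ : ∃ E, E = (n : ℝ) ^ (-(35 * q)) := ⟨_, rfl⟩
  have hD0 : 0 < D := by rw [hD]; exact Real.rpow_pos_of_pos hn0 _
  have hE0 : 0 < E := by rw [hE]; exact Real.rpow_pos_of_pos hn0 _
  have hD1 : D ≤ 1 := by
    rw [hD]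
    exact Real.rpow_le_one_of_one_le_of_nonpos hn1 (by linarith)
  have hDS : D * S' = E := by
    rw [hD, hS', hE, ← Real.rpow_add hn0]
    congr 1
    ring
  have hDE : D ^ 2 ≤ E := by
    rw [hD, hE, ← Real.rpow_natCast, ← Real.rpow_mul hn0.le]
    refine Real.rpow_le_rpow_of_exponent_le hn1 ?_
    push_cast
    linarith
  rw [← hD, ← hS'] at hA
  obtain ⟨V, hV⟩ : ∃ V, V = D * x ^ 3 := ⟨_, rfl⟩
  have hx3 : 0 < x ^ 3 := by positivity
  have hV0 : 0 < V := by rw [hV]; positivity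
  rw [← hV] at hA
  have hxV : 4 * (x * V) ≤ β := by
    have h5 : x * V = D * x ^ 4 := by rw [hV]; ring
    have h6 : x ^ 4 ≤ (1 / 10 ^ 5) ^ 4 := pow_le_pow_left₀ hx0.le hx1 4
    have h7 : D * x ^ 4 ≤ 1 * (1 / 10 ^ 5) ^ 4 := mul_le_mul hD1 h6 (by positivity) (by norm_num)
    rw [h5]
    linarith
  -- the response
  have r1 := resp_dbl hβ0 hn hx0 hV0.le hxV
  have r2 := dbl_up n β 0 hx0
  rw [H9.At_eq] at hA
  have r3 : n * V / (2 * β) * (S' * x ^ 2) ≤ Phn n β x V - Phn n β x 0 - n * V / (2 * β) := by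
    have h5 := mul_le_mul_of_nonneg_left hA (show 0 ≤ n * V / (2 * β) by positivity)
    have e : n * V / (2 * β) * (2 * β / (n * V) * (Phn n β x V - Phn n β x 0) - 1) =
        Phn n β x V - Phn n β x 0 - n * V / (2 * β) := by
      field_simp
    rwa [e] at h5
  have e1 : n * V / (2 * β) * (S' * x ^ 2) = E * (n * x ^ 5) / (2 * β) := by
    rw [hV, ← hDS]
    ring
  rw [e1] at r3
  have r4 : 2 * x * (E * (n * x ^ 5) / (2 * β)) ≤ KV n β (2 * x) 0 + 2 * x * err β n (2 * x) V := by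
    have h5 : E * (n * x ^ 5) / (2 * β) ≤ KV n β (2 * x) 0 / (2 * x) + err β n (2 * x) V := by
      linarith
    have h6 := mul_le_mul_of_nonneg_left h5 (show 0 ≤ 2 * x by linarith)
    refine h6.trans (le_of_eq ?_)
    field_simp
  have e2 : 2 * x * (E * (n * x ^ 5) / (2 * β)) = E * (n * x ^ 6) / β := by
    field_simp
  rw [e2] at r4
  -- `n x ^ 6`
  have h6 : (n : ℝ) ^ (5965 * q) ≤ E * (n * x ^ 6) := by
    have h7 : ((n : ℝ) ^ (-(1 / 6) + 1000 * q)) ^ 6 ≤ x ^ 6 :=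
      pow_le_pow_left₀ (by positivity) hx 6
    have h8 : ((n : ℝ) ^ (-(1 / 6) + 1000 * q)) ^ 6 = (n : ℝ) ^ (-1 + 6000 * q) := by
      rw [← Real.rpow_natCast, ← Real.rpow_mul hn0.le]
      congr 1
      push_cast
      ring
    have h9 : (n : ℝ) ^ (5965 * q) = E * (n * (n : ℝ) ^ (-1 + 6000 * q)) := by
      rw [hE]
      nth_rewrite 3 [← Real.rpow_one (n : ℝ)]
      rw [← Real.rpow_add hn0, ← Real.rpow_add hn0]
      congr 1
      ring
    rw [h9, ← h8]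
    exact mul_le_mul_of_nonneg_left (mul_le_mul_of_nonneg_left h7 hn0.le) hE0.le
  have hX0 : 0 < E * (n * x ^ 6) := by positivity
  -- the error
  have he : 2 * x * err β n (2 * x) V ≤ 1 / 2 * (E * (n * x ^ 6) / β) := by
    have e3 : 2 * x * err β n (2 * x) V = 8 * (n * x ^ 2 * V ^ 2) / β ^ 2 + 2 * x * β +
        2 * Real.log (2 * n) := by
      unfold err
      field_simp
      ring
    have t1 : 8 * (n * x ^ 2 * V ^ 2) / β ^ 2 ≤ 1 / 6 * (E * (n * x ^ 6) / β) := by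
      rw [div_le_iff₀ (by positivity)]
      have h7 : n * x ^ 2 * V ^ 2 = D ^ 2 * (n * x ^ 6) * x ^ 2 := by rw [hV]; ring
      have h8 : x ^ 2 ≤ (1 / 10 ^ 5) ^ 2 := pow_le_pow_left₀ hx0.le hx1 2
      have h9 : D ^ 2 * (n * x ^ 6) * x ^ 2 ≤ E * (n * x ^ 6) * (1 / 10 ^ 5) ^ 2 := by gcongr
      have e4 : 1 / 6 * (E * (n * x ^ 6) / β) * β ^ 2 = 1 / 6 * (E * (n * x ^ 6)) * β := by
        field_simp
      rw [h7, e4]
      have h10 : 1 / 6 * (E * (n * x ^ 6)) * 1 ≤ 1 / 6 * (E * (n * x ^ 6)) * β :=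
        mul_le_mul_of_nonneg_left hβ.le (by positivity)
      linarith
    have t2 : 2 * x * β ≤ 1 / 6 * (E * (n * x ^ 6) / β) := by
      have h7 : 12 * β ^ 2 ≤ E * (n * x ^ 6) := h3.trans h6
      have h8 : 12 * β ≤ E * (n * x ^ 6) / β := by
        rw [le_div_iff₀ hβ0]
        linarith [show 12 * β ^ 2 = 12 * β * β by ring]
      have h9 : x * β ≤ 1 * β := mul_le_mul_of_nonneg_right (by linarith) hβ0.le
      linarith
    have t3 : 2 * Real.log (2 * n) ≤ 1 / 6 * (E * (n * x ^ 6) / β) := by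
      have h7 : Real.log (2 * n) ≤ 1 + Real.log n := by
        rw [Real.log_mul (by norm_num) hn0.ne']
        have := Real.log_two_lt_d9
        linarith
      have h8 : 12 * (1 + Real.log n) ≤ E * (n * x ^ 6) / β := by
        rw [le_div_iff₀ hβ0]
        linarith [show 12 * (1 + Real.log n) * β = 12 * β * (1 + Real.log n) by ring]
      linarith
    rw [e3]
    linarith
  have hfin : (n : ℝ) ^ (-(36 * q)) * (n * (2 * x) ^ 6) ≤ 1 / 2 * (E * (n * x ^ 6) / β) := by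
    have e5 : E = (n : ℝ) ^ q * (n : ℝ) ^ (-(36 * q)) := by
      rw [hE, ← Real.rpow_add hn0]
      congr 1
      ring
    have h36 : 0 < (n : ℝ) ^ (-(36 * q)) := Real.rpow_pos_of_pos hn0 _
    have h7 := mul_le_mul_of_nonneg_right h2
      (show 0 ≤ (n : ℝ) ^ (-(36 * q)) * (n * x ^ 6) by positivity)
    have e6 : (n : ℝ) ^ q * ((n : ℝ) ^ (-(36 * q)) * (n * x ^ 6)) = E * (n * x ^ 6) := by
      rw [e5]
      ring
    rw [e6] at h7
    have h8 : 128 * ((n : ℝ) ^ (-(36 * q)) * (n * x ^ 6)) ≤ E * (n * x ^ 6) / β := by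
      rw [le_div_iff₀ hβ0]
      linarith [show 128 * ((n : ℝ) ^ (-(36 * q)) * (n * x ^ 6)) * β =
        128 * β * ((n : ℝ) ^ (-(36 * q)) * (n * x ^ 6)) by ring]
    linarith [show (n : ℝ) ^ (-(36 * q)) * (n * (2 * x) ^ 6) =
      64 * ((n : ℝ) ^ (-(36 * q)) * (n * x ^ 6)) by ring]
  linarith

/-- **The two bounds of the entropy without field** in the form of `H605S.klog_of_evC`. -/
theorem kboth {β b₁ G : ℝ} (hβ : 1 < β) (hb₁ : 0 < b₁)
    (h : EV fun n q => ∀ x : ℝ, (n : ℝ) ^ (-(1 / 6) + 1000 * q) ≤ x →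
      x ≤ (n : ℝ) ^ (-b₁) →
      (n : ℝ) ^ (-(11 * q)) * x ^ 2 ≤ H877.At β n x ((n : ℝ) ^ (-(24 * q)) * x ^ 3) - 1 ∧
      KV n β x 0 ≤ G * (n * x ^ 6)) :
    EV fun n q => ∀ y : ℝ, (n : ℝ) ^ (-(1 / 6) + 1001 * q) ≤ y → y ≤ (n : ℝ) ^ (-b₁) →
      (n : ℝ) ^ (-(36 * q)) * (n * y ^ 6) ≤ KV n β y 0 ∧ KV n β y 0 ≤ G * (n * y ^ 6) := by
  filter_upwards [h, ev_atTop (H178.ev_neg hb₁ (show (0 : ℝ) < 1 / 10 ^ 5 by norm_num)),
    ev_rpow (show (0 : ℝ) < 1 by norm_num) (128 * β),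
    ev_rpow (show (0 : ℝ) < 5965 by norm_num) (12 * β ^ 2),
    ev_logpow (show (0 : ℝ) < 5965 by norm_num) (12 * β),
    ev_rpow (show (0 : ℝ) < 1 by norm_num) 2, ev_q0, ev_ge 1] with ⟨n, q⟩ g1 g2 g3 g4 g5 g6 hq hn
  dsimp only at g1 g2 g3 g4 g5 g6 hq hn ⊢
  intro y hy hy1
  have hn1 : (1 : ℝ) ≤ n := by exact_mod_cast hn
  have hn0 : (0 : ℝ) < n := by linarith
  rw [one_mul] at g3 g6
  have hx : (n : ℝ) ^ (-(1 / 6) + 1000 * q) ≤ y / 2 := by
    have e1 : (n : ℝ) ^ (-(1 / 6) + 1001 * q) = (n : ℝ) ^ q * (n : ℝ) ^ (-(1 / 6) + 1000 * q) := by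
      rw [← Real.rpow_add hn0]
      congr 1
      ring
    have h1 := mul_le_mul_of_nonneg_right g6
      (Real.rpow_pos_of_pos hn0 (-(1 / 6) + 1000 * q)).le
    rw [← e1] at h1
    linarith
  have hy0 : 0 < y := (Real.rpow_pos_of_pos hn0 _).trans_le hy
  have hy2 : y / 2 ≤ y := by linarith
  have h1 := (g1 (y / 2) hx (by linarith)).1
  have h2 := klow_n hβ hn hq g3 g4 g5 hx (by linarith) h1
  have e2 : 2 * (y / 2) = y := by ring
  rw [e2] at h2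
  exact ⟨h2, (g1 y (hx.trans hy2) hy1).2⟩

end Vale.Agent.P146.S3
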