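import Vale.Agent.P146.H558.S3Joint
import Vale.Agent.P146.H22.S3StartD
import Vale.Agent.P146.H281.S3LinkS
import Vale.Agent.P146.H470.S3LowE
import Vale.Agent.P146.H176.S3UpB2
import Vale.Agent.P146.H197.S3Br
import Vale.Agent.P146.H122.S3b
import Vale.Agent.P146.H463.S3Reg2
import Vale.Agent.P146.H89.S3NeFin
import Vale.Agent.P146.H586.S3KaC

set_option linter.all false

/-!
# P146, S3: the joint flow of the response and of the upper law, no hypothesis left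
-/

open MeasureTheory ProbabilityTheory Filter Topology Set

namespace Vale.Agent.P146.S3

open Vale.Agent.P146
open Vale.Agent.P146.H9 (Phn KV)
open Vale.Agent.P146.H529 (Kam sB sC lA hA)

variable {β b₁ C : ℝ}

/-- **The upper half of the formula**, `s² = n^(-80q) V`. -/
theorem kampUpS_sB (hβ : 1 < β) (hb₁ : 0 < b₁) :
    KampUpS β b₁ fun q => Kam β (sB q) (lA q) (hA q) :=
  kampUpS_B (by linarith) hb₁ (fun _ h => rowUp1S (by linarith) h hb₁ (brnS hβ h hb₁))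
    (fun _ h => rowUp2S hβ.le h hb₁) (fun _ h => neFinS (by linarith) h hb₁)

/-- **The response and the upper law** from the bound of the auxiliary law. -/
theorem joint_ka (hβ : 1 < β) (hb₁ : 0 < b₁) (hb₂ : b₁ < 1 / 180) (hC : 0 ≤ C)
    (hKa : ∀ A : ℝ, 1 ≤ A → KaCS b₁ A β C) :
    ∃ G : ℝ, 0 < G ∧ EV fun n q => ∀ x : ℝ, (n : ℝ) ^ (-(1 / 6) + 1000 * q) ≤ x →
      x ≤ (n : ℝ) ^ (-b₁) →
      (n : ℝ) ^ (-(11 * q)) * x ^ 2 ≤ H877.At β n x ((n : ℝ) ^ (-(24 * q)) * x ^ 3) - 1 ∧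
      KV n β x 0 ≤ G * (n * x ^ 6) := by
  have hβ0 : 0 < β := by linarith
  exact joint (Ka := fun q => Kam β (sC q) (lA q) (hA q)) hβ hb₁ (by linarith)
    (show 0 ≤ 2 * C + 1 by linarith) (startS hβ hb₁ hb₂) (linkUpS hβ0) (linkDnS hβ0)
    (kampUpS_cut (kampUpS_sB hβ hb₁)) (kampLowS_cut (kampLowS hβ0 hb₁))
    (upVS hβ0 hb₁ hC (linkUpS hβ0) hKa)

/-- **The response and the upper law**, eventually in the size and the unit: for a constant `G`
and every scale `x` between `n^(-1/6 + 1000 q)` and `n^(-b₁)`, the derivative factor exceeds `1` by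
`n^(-11q) x²` and the relative entropy is at most `G n x⁶`. -/
theorem joint_all (hβ : 1 < β) (hb₁ : 0 < b₁) (hb₂ : b₁ < 1 / 180) :
    ∃ G : ℝ, 0 < G ∧ EV fun n q => ∀ x : ℝ, (n : ℝ) ^ (-(1 / 6) + 1000 * q) ≤ x →
      x ≤ (n : ℝ) ^ (-b₁) →
      (n : ℝ) ^ (-(11 * q)) * x ^ 2 ≤ H877.At β n x ((n : ℝ) ^ (-(24 * q)) * x ^ 3) - 1 ∧
      KV n β x 0 ≤ G * (n * x ^ 6) := by
  obtain ⟨C, hC, h⟩ := kaCS hβ
  exact joint_ka hβ hb₁ hb₂ hC fun A hA => h b₁ A hb₁ hA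

end Vale.Agent.P146.S3
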