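import Vale.Agent.P146.H558.S3AP
import Vale.Agent.P146.H205.S3Ind

set_option linter.all false

/-!
# P146, S3: the upper law with a constant from the response, for one `n`

`ul`: if the response over `(0, 2 D z ^ 3)` is not below the critical one at all exponents
`z ∈ [x0, 2 y1]`, the entropy without field is at most `G n z ^ 6` for `z ≥ y1`, and the a priori
package at `y` gives `KV y V ≤ C n y ^ 6` at the fields of the size `D y ^ 3`, then
`KV z 0 ≤ G n z ^ 6` for all `z ∈ [x0, y1]`.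
-/

open MeasureTheory ProbabilityTheory Filter Topology Set

namespace Vale.Agent.P146.S3

open Vale.Agent.P146
open Vale.Agent.P146.H877 (kap At)
open Vale.Agent.P146.H9 (Phn KV)
open Vale.Agent.P146.H205.U4
open Vale.Agent.P146.H178 (AP Phn_mono KV_le_dbl At_lin)

variable {n : ℕ} {β s0 G C D x0 y1 x y z v W : ℝ}

/-- one block below the known range -/
lemma kv4 (hn : 1 ≤ n) (hx : 0 < x) (hxy : x ≤ y) (hyx : y ≤ 5 / 4 * x) (hyy1 : y ≤ y1)
    (hG : 0 ≤ G) (h : ∀ w : ℝ, y ≤ w → w ≤ y1 → KV n β w 0 ≤ G * (n * w ^ 6))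
    (hb : ∀ w : ℝ, y1 ≤ w → w ≤ 16 * y1 → KV n β w 0 ≤ G * (n * w ^ 6)) {w : ℝ} (hw1 : x ≤ w)
    (hw2 : w ≤ 16 * x) : KV n β w 0 ≤ 4 * G * (n * w ^ 6) := by
  have hn0 : (0 : ℝ) < n := by exact_mod_cast hn
  have hw0 : 0 < w := hx.trans_le hw1
  have hp : 0 ≤ G * (n * w ^ 6) := by positivity
  rcases le_total y w with hyw | hwy
  · have h1 : KV n β w 0 ≤ G * (n * w ^ 6) := by
      rcases le_total w y1 with h2 | h2
      · exact h w hyw h2
      · exact hb w h2 (by linarith)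
    linarith
  · have h1 : KV n β w 0 ≤ KV n β y 0 :=
      H9.KV_mono n β 0 (mem_Ici.2 hw0.le) (mem_Ici.2 (hw0.le.trans hwy)) hwy
    have h2 := h y le_rfl hyy1
    have h3 : y ^ 6 ≤ 4 * w ^ 6 := by
      calc y ^ 6 ≤ (5 / 4 * w) ^ 6 := pow_le_pow_left₀ (by linarith) (by linarith) 6
        _ = 15625 / 4096 * w ^ 6 := by ring
        _ ≤ 4 * w ^ 6 := by
          have : 0 ≤ w ^ 6 := by positivity
          linarith
    have h4 : G * (n * y ^ 6) ≤ G * (n * (4 * w ^ 6)) := by gcongr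
    linarith [show G * (n * (4 * w ^ 6)) = 4 * G * (n * w ^ 6) by ring]

/-- **The a priori package one block below the known range.** -/
theorem ap_hist (hn : 1 ≤ n) (hβ : 0 < β)
    (cv : ∀ x : ℝ, 0 < x → x ≤ 1 / 2 → ConcaveOn ℝ (Ici 0) (Phn n β x))
    (hx : 0 < x) (hxy : x ≤ y) (hyx : y ≤ 5 / 4 * x) (hyy1 : y ≤ y1) (hy1 : y1 ≤ 1 / 64)
    (hG : 1 ≤ G) (hs : 16 * 10 ^ 7 * G ≤ (n : ℝ) ^ s0)
    (h : ∀ w : ℝ, y ≤ w → w ≤ y1 → KV n β w 0 ≤ G * (n * w ^ 6))
    (hb : ∀ w : ℝ, y1 ≤ w → w ≤ 16 * y1 → KV n β w 0 ≤ G * (n * w ^ 6))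
    (he : ∀ w : ℝ, x ≤ w → w ≤ 8 * x → err β n w W ≤ n * w ^ 5)
    (hxz : x ≤ z) (hz : z ≤ 2 * x) (hW0 : 0 < W) (hxW : 16 * (x * W) ≤ β)
    (hA : 1 ≤ At β n z W) {u : ℝ} (hu1 : x / 2 ≤ u) (hu2 : u ≤ 2 * x) : AP β s0 n u W := by
  have hn0 : (0 : ℝ) < n := by exact_mod_cast hn
  refine apk (G := 4 * G) hβ hn (by linarith) (by linarith) cv hx (by linarith) hxz hz hW0 hxW hA
    (fun w h1 h2 => kv4 hn hx hxy hyx hyy1 (by linarith) h hb h1 (by linarith))
    (fun w h1 h2 => (he w h1 h2).trans ?_) hu1 hu2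
  have hw0 : 0 < w := hx.trans_le h1
  have : 0 ≤ n * w ^ 5 := by positivity
  nlinarith

/-- **The upper law from the response, for one `n`.** -/
theorem ul (hn : 1 ≤ n) (hβ : 0 < β)
    (cv : ∀ x : ℝ, 0 < x → x ≤ 1 / 2 → ConcaveOn ℝ (Ici 0) (Phn n β x))
    (hx0 : 0 < x0) (hy1 : y1 ≤ 1 / 64) (hD0 : 0 < D) (hDβ : D ≤ β)
    (hC : 0 ≤ C) (hGC : 66 * C + 2 ≤ G) (hs : 16 * 10 ^ 7 * G ≤ (n : ℝ) ^ s0)
    (hb : ∀ w : ℝ, y1 ≤ w → w ≤ 16 * y1 → KV n β w 0 ≤ G * (n * w ^ 6))
    (hA : ∀ z : ℝ, x0 ≤ z → z ≤ 2 * y1 → 1 ≤ At β n z (2 * (D * z ^ 3)))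
    (UV : ∀ y : ℝ, x0 ≤ y → y ≤ 2 * y1 → ∀ V : ℝ, D * y ^ 3 ≤ 8 * V → V ≤ 8 * (D * y ^ 3) →
      (∀ u : ℝ, y ≤ u → u ≤ 2 * y → AP β s0 n u (2 * V)) → KV n β y V ≤ C * (n * y ^ 6))
    (he : ∀ w : ℝ, x0 ≤ w → w ≤ 16 * y1 → err β n w (16 * (D * w ^ 3)) ≤ n * w ^ 5) :
    ∀ z ∈ Icc x0 y1, KV n β z 0 ≤ G * (n * z ^ 6) := by
  have hn0 : (0 : ℝ) < n := by exact_mod_cast hn
  have hG1 : 1 ≤ G := by linarith
  have key : ∀ k : ℕ, ∀ z ∈ Icc x0 y1, y1 ≤ (5 / 4 : ℝ) ^ k * z →
      KV n β z 0 ≤ G * (n * z ^ 6) := by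
    intro k
    induction k with
    | zero =>
      intro z hz h
      rw [pow_zero, one_mul] at h
      have : z = y1 := le_antisymm hz.2 h
      rw [this]
      exact hb y1 le_rfl (by linarith [hx0.trans_le (hz.1.trans hz.2)])
    | succ k ih =>
      intro z hz h
      have hz0 : 0 < z := hx0.trans_le hz.1
      have hy10 : 0 < y1 := hz0.trans_le hz.2
      have hzy1 : z ≤ y1 := hz.2
      -- the known range starts at `y`
      obtain ⟨y, hy⟩ : ∃ y, y = min (5 / 4 * z) y1 := ⟨_, rfl⟩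
      have hyz : y ≤ 5 / 4 * z := by rw [hy]; exact min_le_left _ _
      have hyy1 : y ≤ y1 := by rw [hy]; exact min_le_right _ _
      have hzy : z ≤ y := by
        rw [hy]
        exact le_min (by linarith) hz.2
      have hyk : y1 ≤ (5 / 4 : ℝ) ^ k * y := by
        rw [hy]
        rcases le_total (5 / 4 * z) y1 with h1 | h1
        · rw [min_eq_left h1]
          calc y1 ≤ (5 / 4 : ℝ) ^ (k + 1) * z := h
            _ = (5 / 4 : ℝ) ^ k * (5 / 4 * z) := by ring
        · rw [min_eq_right h1]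
          have h2 : (1 : ℝ) ≤ (5 / 4 : ℝ) ^ k := one_le_pow₀ (by norm_num)
          nlinarith
      have hK : ∀ w : ℝ, y ≤ w → w ≤ y1 → KV n β w 0 ≤ G * (n * w ^ 6) := fun w h1 h2 =>
        ih w ⟨(hz.1.trans hzy).trans h1, h2⟩
          (hyk.trans (mul_le_mul_of_nonneg_left h1 (by positivity)))
      have hz3 : 0 < z ^ 3 := by positivity
      obtain ⟨V, hV⟩ : ∃ V, V = D * z ^ 3 := ⟨_, rfl⟩
      have hV0 : 0 < V := by rw [hV]; positivity
      have hz4 : z * V ≤ β / 64 := by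
        have h1 : z ^ 4 ≤ (1 / 64) ^ 4 := pow_le_pow_left₀ hz0.le (by linarith) 4
        have h2 : z * V = D * z ^ 4 := by rw [hV]; ring
        rw [h2]
        calc D * z ^ 4 ≤ β * (1 / 64) ^ 4 := mul_le_mul hDβ h1 (by positivity) hβ.le
          _ ≤ β / 64 := by linarith
      -- the response at `2 z`
      have hA2 : 1 ≤ At β n (2 * z) (2 * V) := by
        refine at_anti hβ hn (cv (2 * z) (by linarith) (by linarith)) (by linarith) ?_
          (hA (2 * z) (by linarith [hz.1]) (by linarith))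
        have e : D * (2 * z) ^ 3 = 8 * V := by rw [hV]; ring
        rw [e]
        linarith
      have hA1 : 1 ≤ At β n z (2 * V) := by
        have := hA z hz.1 (by linarith)
        rwa [← hV] at this
      have hew : ∀ w : ℝ, z ≤ w → w ≤ 16 * z → err β n w (2 * V) ≤ n * w ^ 5 := by
        intro w h1 h2
        have hw0 : 0 < w := hz0.trans_le h1
        refine (err_monoV β n hw0.le (by linarith) ?_).trans
          (he w (hz.1.trans h1) (by linarith))
        have h3 : z ^ 3 ≤ w ^ 3 := pow_le_pow_left₀ hz0.le h1 3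
        have h4 : D * z ^ 3 ≤ D * w ^ 3 := mul_le_mul_of_nonneg_left h3 hD0.le
        rw [hV]
        have : 0 ≤ D * w ^ 3 := by positivity
        linarith
      -- the a priori package on `[z, 4 z]`
      have ap1 : ∀ u : ℝ, z ≤ u → u ≤ 2 * z → AP β s0 n u (2 * V) := fun u h1 h2 =>
        ap_hist hn hβ cv hz0 hzy hyz hyy1 hy1 hG1 hs hK hb
          (fun w h3 h4 => hew w h3 (by linarith)) le_rfl (by linarith) (by linarith)
          (by linarith [show 16 * (z * (2 * V)) = 32 * (z * V) by ring]) hA1 (by linarith) h2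
      have ap2 : ∀ u : ℝ, 2 * z ≤ u → u ≤ 2 * (2 * z) → AP β s0 n u (2 * V) := by
        intro u h1 h2
        refine apk (G := 4 * G) (y := 2 * z) (z := 2 * z) hβ hn (by linarith) (by linarith) cv
          (by linarith) (by linarith) le_rfl (by linarith) (by linarith)
          (by linarith [show 16 * (2 * z * (2 * V)) = 64 * (z * V) by ring]) hA2 ?_ ?_
          (by linarith) (by linarith)
        · intro w h3 h4
          exact kv4 hn hz0 hzy hyz hyy1 (by linarith) hK hb (by linarith) (by linarith)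
        · intro w h3 h4
          refine (hew w (by linarith) (by linarith)).trans ?_
          have hw0 : 0 < w := by linarith
          have : 0 ≤ n * w ^ 5 := by positivity
          nlinarith
      -- the upper law at the field `V`
      have k1 := UV z hz.1 (by linarith) V (by linarith) (by linarith) ap1
      have e8 : D * (2 * z) ^ 3 = 8 * V := by rw [hV]; ring
      have k2 := UV (2 * z) (by linarith [hz.1]) (by linarith) V (by rw [e8])
        (by rw [e8]; linarith) ap2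
      have hf : n * V / (2 * β) ≤ Phn n β (2 * z) V - Phn n β (2 * z) 0 :=
        At_lin hβ hn (cv (2 * z) (by linarith) (by linarith)) (by linarith) hA2 hV0.le
          (by linarith)
      have k3 := kv_zero hβ hn hz0 hV0 (by linarith) hf
      have k4 : 2 * z * err β n z V ≤ 2 * z * (n * z ^ 5) := by
        refine mul_le_mul_of_nonneg_left ?_ (by linarith)
        exact (err_monoV β n hz0.le hV0.le (by linarith)).trans (hew z le_rfl (by linarith))
      have k5 : 0 ≤ n * z ^ 6 := by positivity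
      have k6 := mul_le_mul_of_nonneg_right hGC k5
      have e1 : C * (n * (2 * z) ^ 6) = 64 * (C * (n * z ^ 6)) := by ring
      rw [e1] at k2
      have e2 : 2 * z * (n * z ^ 5) = 2 * (n * z ^ 6) := by ring
      rw [e2] at k4
      have e3 : (66 * C + 2) * (n * z ^ 6) = 66 * (C * (n * z ^ 6)) + 2 * (n * z ^ 6) := by ring
      rw [e3] at k6
      linarith
  intro z hz
  have hz0 : 0 < z := hx0.trans_le hz.1
  obtain ⟨k, hk⟩ := pow_unbounded_of_one_lt (y1 / z) (by norm_num : (1 : ℝ) < 5 / 4)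
  exact key k z hz (by rw [div_lt_iff₀ hz0] at hk; exact hk.le)

end Vale.Agent.P146.S3
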